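import Vale.Agent.P196.Window

/-!
P196: a finitely presented group without proper finite-index subgroups has no nontrivial action
with bounded displacement along the orbits of a single bijection.
-/

namespace Vale.Agent.P196

variable {G : Type*} [Group G]

theorem int_action_trivial [Group.IsFinitelyPresented G]
    (hG : ∀ H : Subgroup G, H.FiniteIndex → H = ⊤) (σ : G →* Equiv.Perm ℤ)
    (hb : BoundedDisp σ) : σ = 1 := by
  classical
  obtain ⟨n, π, hπ, S, hS, hSπ⟩ :=
    Group.IsFinitelyPresented.out (G := G)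
  by_contra hne
  obtain ⟨i₀, m₀, hmove⟩ : ∃ i m, σ (π (FreeGroup.of i)) m ≠ m := by
    by_contra hall
    push Not at hall
    apply hne
    have hc : σ.comp π = 1 := FreeGroup.ext_hom _ _ fun i => Equiv.ext fun m => hall i m
    refine MonoidHom.ext fun g => ?_
    obtain ⟨x, rfl⟩ := hπ g
    exact DFunLike.congr_fun hc x
  let gen : Fin n × Bool → G := fun l => π (FreeGroup.mk [l])
  let d : ℤ → Fin n × Bool → ℤ := fun m l => σ (gen l) m - m
  choose Nl hNl using fun l => hb (gen l)
  let N : ℕ := ∑ l, Nl l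
  have hd : ∀ m l, |d m l| ≤ N := fun m l => (hNl l m).trans (by
    exact_mod_cast Finset.single_le_sum (fun _ _ => Nat.zero_le _) (Finset.mem_univ l))
  have hwalk : ∀ (w : List (Fin n × Bool)) (p : ℤ),
      walk d w p = σ (π (FreeGroup.mk w)) p := by
    intro w p
    induction w with
    | nil => simp [walk, ← FreeGroup.one_eq_mk]
    | cons l w ih =>
      have : FreeGroup.mk (l :: w) = FreeGroup.mk [l] * FreeGroup.mk w := by
        rw [FreeGroup.mul_mk]; rfl
      rw [this, map_mul, map_mul, Equiv.Perm.mul_apply, walk, ih]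
      simp only [d, gen]
      ring
  obtain ⟨L, hL⟩ := (hS.image fun s => s.toWord.length).bddAbove
  let R : ℕ := N * (L + 2)
  let c : ℤ → Fin n × Bool → Set.Icc (-(N : ℤ)) N := fun m l => ⟨d m l, abs_le.1 (hd m l)⟩
  obtain ⟨a, P, b, Q, hP, hQ, hbm, ham, ha, hb'⟩ := exists_fold_data c R m₀
  have hba : b ≤ a := by omega
  have hdc : ∀ {p q : ℤ}, c p = c q → d p = d q := fun h =>
    funext fun l => congrArg Subtype.val (congrFun h l)
  let d' : ℤ → Fin n × Bool → ℤ := fun m => d (fold a P b Q m)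
  have hd' : ∀ m l, |d' m l| ≤ N := fun m l => hd _ l
  have hloc : ∀ (w : List (Fin n × Bool)) (m : ℤ), w.length ≤ L + 2 →
      π (FreeGroup.mk w) = 1 → walk d' w m = m := by
    intro w m hw h1
    have h2 := (walk_local (d := d) hd' w m (fold a P b Q m) fun j hj => by
      have hjR : |j| ≤ (R : ℕ) := hj.trans (by exact_mod_cast Nat.mul_le_mul_left N hw)
      exact hdc (fold_window c hP hQ hba ha hb' m j hjR)).1
    rw [hwalk, h1, map_one, Equiv.Perm.one_apply] at h2
    linarith
  have hcancel : ∀ (i : Fin n) (s : Bool) (m : ℤ), walk d' [(i, !s), (i, s)] m = m := by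
    intro i s m
    refine hloc _ m (by simp) ?_
    have h1 : FreeGroup.mk [(i, !s), (i, s)]
        = (FreeGroup.mk [(i, s)])⁻¹ * FreeGroup.mk [(i, s)] := by
      rw [FreeGroup.inv_mk, FreeGroup.mul_mk]
      simp [FreeGroup.invRev]
    rw [h1, inv_mul_cancel, map_one]
  let e : Fin n → Equiv.Perm ℤ := fun i =>
    ⟨fun m => walk d' [(i, true)] m, fun m => walk d' [(i, false)] m,
      fun m => hcancel i true m, fun m => hcancel i false m⟩
  let ψ : FreeGroup (Fin n) →* Equiv.Perm ℤ := FreeGroup.lift e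
  have hψ : ∀ (w : List (Fin n × Bool)) (m : ℤ), ψ (FreeGroup.mk w) m = walk d' w m := by
    intro w m
    induction w with
    | nil => simp [walk, ← FreeGroup.one_eq_mk]
    | cons l w ih =>
      have : FreeGroup.mk (l :: w) = FreeGroup.mk [l] * FreeGroup.mk w := by
        rw [FreeGroup.mul_mk]; rfl
      rw [this, map_mul, Equiv.Perm.mul_apply, ih]
      obtain ⟨i, _ | _⟩ := l <;>
        simp [ψ, FreeGroup.lift_mk, e, walk]
  have hker : π.ker ≤ ψ.ker := by
    rw [← hSπ]
    refine Subgroup.normalClosure_le_normal fun s hs => MonoidHom.mem_ker.2 (Equiv.ext fun m => ?_)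
    have hsπ : π s = 1 := by
      have : s ∈ π.ker := hSπ ▸ Subgroup.subset_normalClosure hs
      exact this
    rw [← FreeGroup.mk_toWord (x := s), hψ, Equiv.Perm.one_apply]
    refine hloc _ m ?_ (by rwa [FreeGroup.mk_toWord])
    exact (hL ⟨s, hs, rfl⟩).trans (Nat.le_add_right L 2)
  let σ' : G →* Equiv.Perm ℤ := π.liftOfSurjective hπ ⟨ψ, hker⟩
  have hσ' : ∀ x, σ' (π x) = ψ x := fun x =>
    MonoidHom.liftOfRightInverse_comp_apply π _ _ ⟨ψ, hker⟩ x
  have hb'' : BoundedDisp σ' := by
    intro g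
    obtain ⟨x, rfl⟩ := hπ g
    refine ⟨N * x.toWord.length, fun m => ?_⟩
    rw [hσ', ← FreeGroup.mk_toWord (x := x), hψ, FreeGroup.mk_toWord]
    exact (walk_local hd' x.toWord m m fun j _ => rfl).2
  have hgen : ∀ i m, σ' (π (FreeGroup.of i)) m = m + d (fold a P b Q m) (i, true) := by
    intro i m
    rw [hσ', show FreeGroup.of i = FreeGroup.mk [(i, true)] from rfl, hψ]
    rfl
  have hT : Subgroup.closure
      ((Finset.univ.image fun i => π (FreeGroup.of i) : Finset G) : Set G) = ⊤ := by
    rw [Finset.coe_image, Finset.coe_univ, Set.image_univ,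
      show Set.range (fun i => π (FreeGroup.of i)) = π '' Set.range FreeGroup.of from
        Set.range_comp π FreeGroup.of,
      ← MonoidHom.map_closure, FreeGroup.closure_range_of, Subgroup.map_top_of_surjective π hπ]
  have htriv : σ' = 1 := by
    refine eq_one_of_periodic hG hb'' _ hT hP hQ (fun g hg => ?_) fun g hg => ?_
    · obtain ⟨i, -, rfl⟩ := Finset.mem_image.1 hg
      refine ⟨a, fun m hm => ?_⟩
      have : fold a P b Q (m + P) = fold a P b Q m := by
        rw [fold, fold, if_pos (by omega), if_pos hm, show m + P - a = m - a + P by ring,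
          Int.add_emod_right]
      rw [hgen, hgen, this]
      ring
    · obtain ⟨i, -, rfl⟩ := Finset.mem_image.1 hg
      refine ⟨b - 1, fun m hm => ?_⟩
      have : fold a P b Q (m - Q) = fold a P b Q m := by
        rw [fold, fold, if_neg (by omega), if_pos (by omega), if_neg (by omega),
          if_pos (by omega), show m - Q - (b - Q) = m - (b - Q) - Q by ring, Int.sub_emod_right]
      rw [hgen, hgen, this]
      ring
  apply hmove
  have h := hgen i₀ m₀
  rw [htriv, MonoidHom.one_apply, Equiv.Perm.one_apply, fold, if_neg (by omega),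
    if_neg (by omega)] at h
  have hgen' : gen (i₀, true) = π (FreeGroup.of i₀) := rfl
  simp only [d, hgen'] at h
  linarith

theorem wobbling_action_trivial [Group.IsFinitelyPresented G]
    (hG : ∀ H : Subgroup G, H.FiniteIndex → H = ⊤) {X : Type*} (φ : Equiv.Perm X)
    (ρ : G →* Equiv.Perm X)
    (hρ : ∀ g, ∃ N : ℕ, ∀ x, ∃ k : ℤ, |k| ≤ N ∧ ρ g x = (φ ^ k) x) : ρ = 1 := by
  classical
  refine MonoidHom.ext fun g₀ => Equiv.ext fun x => ?_
  choose N hN using hρ
  have hstep : ∀ (g : G) (j : ℤ), ∃ j' : ℤ, |j' - j| ≤ N g ∧ ρ g ((φ ^ j) x) = (φ ^ j') x := by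
    intro g j
    obtain ⟨k, hk, h⟩ := hN g ((φ ^ j) x)
    exact ⟨k + j, by simpa using hk, by rw [h, zpow_add, Equiv.Perm.mul_apply]⟩
  by_cases hper : ∃ p : ℤ, 0 < p ∧ (φ ^ p) x = x
  · obtain ⟨p, hp, hpx⟩ := hper
    let O : Set X := Set.range fun j : ℤ => (φ ^ j) x
    have hfin : O.Finite := by
      refine ((Set.finite_Icc (0 : ℤ) p).image fun j => (φ ^ j) x).subset ?_
      rintro _ ⟨j, rfl⟩
      refine ⟨j % p, ⟨Int.emod_nonneg j hp.ne', (Int.emod_lt_of_pos j hp).le⟩, ?_⟩
      show _ = (φ ^ j) x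
      conv_rhs => rw [← Int.emod_add_ediv_mul j p, zpow_add, Equiv.Perm.mul_apply,
        mul_comm (j / p) p, zpow_mul, Equiv.Perm.zpow_apply_eq_self_of_apply_eq_self hpx]
    have : Finite O := hfin.to_subtype
    have hinv : ∀ g : G, ∀ y ∈ O, ρ g y ∈ O := by
      rintro g _ ⟨j, rfl⟩
      obtain ⟨j', -, h⟩ := hstep g j
      exact ⟨j', h.symm⟩
    let f : G →* Equiv.Perm O :=
      MonoidHom.mk' (fun g => ⟨fun y => ⟨ρ g y, hinv g y y.2⟩, fun y => ⟨ρ g⁻¹ y, hinv g⁻¹ y y.2⟩,
        fun y => Subtype.ext (by simp), fun y => Subtype.ext (by simp)⟩)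
        fun g h => Equiv.ext fun y => Subtype.ext (by simp)
    exact congrArg Subtype.val (congrArg (fun e : Equiv.Perm O => e ⟨x, 0, by simp⟩)
      (DFunLike.congr_fun (hom_finite_eq_one hG f) g₀))
  · have hinj : ∀ {i j : ℤ}, (φ ^ i) x = (φ ^ j) x → i = j := by
      intro i j h
      push Not at hper
      have key : ∀ {i j : ℤ}, i < j → (φ ^ i) x ≠ (φ ^ j) x := by
        intro i j hij h
        refine hper (j - i) (by omega) ?_
        rw [sub_eq_neg_add, zpow_add, Equiv.Perm.mul_apply, ← h, ← Equiv.Perm.mul_apply,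
          ← zpow_add, neg_add_cancel, zpow_zero, Equiv.Perm.one_apply]
      rcases lt_trichotomy i j with h' | h' | h'
      · exact absurd h (key h')
      · exact h'
      · exact absurd h.symm (key h')
    choose τ hτN hτ using hstep
    have hτone : ∀ j, τ 1 j = j := fun j => hinj (by rw [← hτ, map_one, Equiv.Perm.one_apply])
    have hτmul : ∀ g h j, τ (g * h) j = τ g (τ h j) := fun g h j =>
      hinj (by rw [← hτ, map_mul, Equiv.Perm.mul_apply, hτ, hτ])
    let σ : G →* Equiv.Perm ℤ :=
      MonoidHom.mk' (fun g => ⟨τ g, τ g⁻¹, fun j => by rw [← hτmul, inv_mul_cancel, hτone],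
        fun j => by rw [← hτmul, mul_inv_cancel, hτone]⟩) fun g h => Equiv.ext fun j => hτmul g h j
    have hσ := int_action_trivial hG σ fun g => ⟨N g, fun j => hτN g j⟩
    have h0 : τ g₀ 0 = 0 := congrArg (fun e : Equiv.Perm ℤ => e 0) (DFunLike.congr_fun hσ g₀)
    have := hτ g₀ 0
    rw [h0] at this
    simpa using this

theorem finiteIndex_eq_top_of_simple [IsSimpleGroup G] [Infinite G] (H : Subgroup G)
    (hH : H.FiniteIndex) : H = ⊤ := by
  rcases Subgroup.Normal.eq_bot_or_eq_top (H.normalCore_normal) with h | h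
  · exfalso
    have h1 : (H.normalCore).index ≠ 0 := Subgroup.FiniteIndex.index_ne_zero
    rw [h, Subgroup.index_bot] at h1
    exact h1 Nat.card_eq_zero_of_infinite
  · exact top_le_iff.1 (h ▸ H.normalCore_le)

end Vale.Agent.P196
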