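import Mathlib

/-!
P196: eventually periodic bounded-displacement actions on the integers of groups without proper
finite-index subgroups are trivial.
-/

namespace Vale.Agent.P196

variable {G : Type*} [Group G]

/-- Bounded displacement on the integers. -/
def BoundedDisp (σ : G →* Equiv.Perm ℤ) : Prop := ∀ g, ∃ N : ℕ, ∀ m : ℤ, |σ g m - m| ≤ N

theorem hom_finite_eq_one (hG : ∀ H : Subgroup G, H.FiniteIndex → H = ⊤) {K : Type*} [Group K]
    [Finite K] (f : G →* K) : f = 1 := by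
  have : f.ker.FiniteIndex := by
    refine ⟨?_⟩
    rw [Subgroup.index_ker]
    exact Nat.card_pos.ne'
  have h := hG f.ker this
  ext g
  exact MonoidHom.mem_ker.1 (h ▸ Subgroup.mem_top g)

theorem hom_int_eq_zero (hG : ∀ H : Subgroup G, H.FiniteIndex → H = ⊤) (D : G → ℤ)
    (hD : ∀ g h, D (g * h) = D g + D h) (g : G) : D g = 0 := by
  let k : ℕ := (D g).natAbs + 1
  let f : G →* Multiplicative (ZMod k) :=
    MonoidHom.mk' (fun g => Multiplicative.ofAdd ((D g : ℤ) : ZMod k))
      (fun a b => by simp [hD])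
  have h1 : ((D g : ℤ) : ZMod k) = 0 := congrArg Multiplicative.toAdd
    (DFunLike.congr_fun (hom_finite_eq_one hG f) g)
  rw [ZMod.intCast_zmod_eq_zero_iff_dvd] at h1
  refine Int.eq_zero_of_dvd_of_natAbs_lt_natAbs h1 ?_
  rw [Int.natAbs_natCast]
  exact Nat.lt_succ_self _

/-- Eventual periodicity to the right. -/
def RightPer (σ : G →* Equiv.Perm ℤ) (P : ℤ) : Prop :=
  ∀ g, ∃ M : ℤ, ∀ m, M ≤ m → σ g (m + P) = σ g m + P

theorem rightPer_nsmul {σ : G →* Equiv.Perm ℤ} {P : ℤ} (hP : 0 < P) {g : G} {M : ℤ}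
    (hM : ∀ m, M ≤ m → σ g (m + P) = σ g m + P) :
    ∀ (k : ℕ) (m : ℤ), M ≤ m → σ g (m + k * P) = σ g m + k * P
  | 0, m, _ => by simp
  | k + 1, m, hm => by
    have h := hM (m + k * P) (by nlinarith)
    rw [rightPer_nsmul hP hM k m hm] at h
    push_cast
    rw [add_mul, one_mul, ← add_assoc, h, add_assoc]

theorem rightPer_closed {σ : G →* Equiv.Perm ℤ} (hb : BoundedDisp σ) (P : ℤ) (T : Set G)
    (hT : Subgroup.closure T = ⊤)
    (hgen : ∀ g ∈ T, ∃ M : ℤ, ∀ m, M ≤ m → σ g (m + P) = σ g m + P) : RightPer σ P := by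
  intro g
  induction (show g ∈ Subgroup.closure T by simp [hT]) using Subgroup.closure_induction with
  | mem x hx => exact hgen x hx
  | one => exact ⟨0, fun m _ => by simp⟩
  | mul x y _ _ hx hy =>
    obtain ⟨M₁, h₁⟩ := hx
    obtain ⟨M₂, h₂⟩ := hy
    obtain ⟨N, hN⟩ := hb y
    refine ⟨max M₂ (M₁ + N), fun m hm => ?_⟩
    simp only [map_mul, Equiv.Perm.mul_apply]
    rw [h₂ m (le_trans (le_max_left _ _) hm), h₁]
    have := abs_le.1 (hN m)
    have := le_trans (le_max_right _ _) hm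
    omega
  | inv x _ hx =>
    obtain ⟨M, hM⟩ := hx
    obtain ⟨N, hN⟩ := hb x⁻¹
    refine ⟨M + N, fun m hm => ?_⟩
    have h1 := hM (σ x⁻¹ m) (by have := abs_le.1 (hN m); omega)
    rw [map_inv, Equiv.Perm.inv_def] at h1 ⊢
    rw [Equiv.apply_symm_apply] at h1
    rw [← h1, Equiv.symm_apply_apply]

theorem right_fixed (hG : ∀ H : Subgroup G, H.FiniteIndex → H = ⊤) {σ : G →* Equiv.Perm ℤ}
    {P : ℤ} (hP : 0 < P) (hper : RightPer σ P) (g : G) :
    ∃ M : ℤ, ∀ m, M ≤ m → σ g m = m := by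
  classical
  choose M hM using hper
  let K : G → ℤ → ℕ := fun g m => (M g - m).toNat
  let θ : G → ℤ → ℤ := fun g m => σ g (m + K g m * P) - K g m * P
  have hθ : ∀ g m, ∀ k : ℕ, K g m ≤ k → σ g (m + k * P) = θ g m + k * P := by
    intro g m k hk
    obtain ⟨d, rfl⟩ := Nat.exists_eq_add_of_le hk
    have hge : M g ≤ m + (K g m) * P := by
      have : (M g - m) ≤ (K g m : ℤ) := Int.self_le_toNat _
      nlinarith [Int.natCast_nonneg (K g m)]
    have := rightPer_nsmul hP (hM g) d _ hge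
    simp only [θ]
    push_cast at this ⊢
    rw [show m + ((K g m : ℤ) + d) * P = m + K g m * P + d * P by ring, this]
    ring
  have hone : ∀ m, θ 1 m = m := fun m => by simp [θ]
  have hmul : ∀ g h m, θ (g * h) m = θ g (θ h m) := by
    intro g h m
    let k := max (max (K (g * h) m) (K h m)) (K g (θ h m))
    have h1 := hθ (g * h) m k (le_trans (le_max_left _ _) (le_max_left _ _))
    rw [map_mul, Equiv.Perm.mul_apply, hθ h m k (le_trans (le_max_right _ _) (le_max_left _ _)),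
      hθ g (θ h m) k (le_max_right _ _)] at h1
    linarith
  have hshift : ∀ g m, θ g (m + P) = θ g m + P := by
    intro g m
    let k := max (K g (m + P)) (K g m)
    have h1 := hθ g (m + P) k (le_max_left _ _)
    have h2 := hθ g m (k + 1) (le_trans (le_max_right _ _) (Nat.le_succ _))
    rw [show m + P + (k : ℤ) * P = m + ((k + 1 : ℕ) : ℤ) * P by push_cast; ring, h2] at h1
    push_cast at h1
    linarith
  have hshiftk : ∀ g m (k : ℤ), θ g (m + k * P) = θ g m + k * P := by
    intro g m k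
    induction k using Int.induction_on with
    | zero => simp
    | succ k ih =>
      rw [show m + ((k : ℤ) + 1) * P = m + k * P + P by ring, hshift, ih]; ring
    | pred k ih =>
      have h := hshift g (m + (-(k : ℤ) - 1) * P)
      rw [show m + (-(k : ℤ) - 1) * P + P = m + -(k : ℤ) * P by ring, ih] at h
      linarith
  obtain ⟨p, rfl⟩ : ∃ p : ℕ, P = p := ⟨P.toNat, (Int.toNat_of_nonneg hP.le).symm⟩
  have hp : NeZero p := ⟨by omega⟩
  have hcast : ∀ g m, ((θ g m : ℤ) : ZMod p) = ((θ g ((m : ZMod p).val : ℤ) : ℤ) : ZMod p) := by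
    intro g m
    obtain ⟨k, hk⟩ : ∃ k : ℤ, m = ((m : ZMod p).val : ℤ) + k * p := by
      refine ⟨m / p, ?_⟩
      rw [ZMod.val_intCast]
      linarith [Int.emod_add_ediv_mul m p]
    conv_lhs => rw [hk, hshiftk]
    simp
  let act : G → ZMod p → ZMod p := fun g r => ((θ g (r.val : ℤ) : ℤ) : ZMod p)
  have hact : ∀ (g : G) (m : ℤ), act g (m : ZMod p) = ((θ g m : ℤ) : ZMod p) := fun g m => (hcast g m).symm
  have hactmul : ∀ g h r, act (g * h) r = act g (act h r) := fun g h r => by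
    show _ = act g ((θ h (r.val : ℤ) : ℤ) : ZMod p)
    rw [hact, ← hmul]
  have hact1 : ∀ r, act 1 r = r := fun r => by simp [act, hone]
  let f : G →* Equiv.Perm (ZMod p) :=
    MonoidHom.mk' (fun g => ⟨act g, act g⁻¹, fun r => by rw [← hactmul, inv_mul_cancel, hact1],
      fun r => by rw [← hactmul, mul_inv_cancel, hact1]⟩) fun g h => Equiv.ext fun r => hactmul g h r
  have hmod : ∀ g m, ((θ g m : ℤ) : ZMod p) = (m : ZMod p) := fun g m => by
    rw [← hact]
    exact congrArg (fun e : Equiv.Perm (ZMod p) => e (m : ZMod p))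
      (DFunLike.congr_fun (hom_finite_eq_one hG f) g)
  have hfix : ∀ g m, θ g m = m := by
    intro g m
    have := hom_int_eq_zero hG (fun g => θ g m - m) (fun a b => by
      obtain ⟨k, hk⟩ : ∃ k : ℤ, θ b m = m + k * p := by
        obtain ⟨k, hk⟩ := (ZMod.intCast_eq_intCast_iff_dvd_sub _ _ _).1 (hmod b m).symm
        exact ⟨k, by linarith⟩
      rw [hmul, hk, hshiftk]
      ring) g
    linarith
  refine ⟨M g, fun m hm => ?_⟩
  have h := hθ g m 0 (by simp [K, hm])
  simpa [hfix] using h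

theorem eq_one_of_eventually_fixed (hG : ∀ H : Subgroup G, H.FiniteIndex → H = ⊤)
    {σ : G →* Equiv.Perm ℤ} (T : Finset G) (hT : Subgroup.closure (T : Set G) = ⊤)
    (hR : ∀ g ∈ T, ∃ M : ℤ, ∀ m, M ≤ m → σ g m = m)
    (hL : ∀ g ∈ T, ∃ M : ℤ, ∀ m, m ≤ M → σ g m = m) : σ = 1 := by
  classical
  choose MR hMR using hR
  choose ML hML using hL
  let B : ℕ := ∑ g : T, ((MR g g.2).natAbs + (ML g g.2).natAbs)
  have hfix : ∀ g, ∀ m : ℤ, (B : ℤ) < |m| → σ g m = m := by
    intro g
    induction (show g ∈ Subgroup.closure (T : Set G) by simp [hT]) using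
      Subgroup.closure_induction with
    | mem x hx =>
      intro m hm
      have hle : (MR x hx).natAbs + (ML x hx).natAbs ≤ B :=
        Finset.single_le_sum (f := fun g : T => (MR g g.2).natAbs + (ML g g.2).natAbs)
          (fun _ _ => Nat.zero_le _) (Finset.mem_univ (⟨x, hx⟩ : T))
      rcases le_total 0 m with h | h
      · rw [abs_of_nonneg h] at hm
        exact hMR x hx m (by omega)
      · rw [abs_of_nonpos h] at hm
        exact hML x hx m (by omega)
    | one => simp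
    | mul x y _ _ hx hy =>
      intro m hm
      rw [map_mul, Equiv.Perm.mul_apply, hy m hm, hx m hm]
    | inv x _ hx =>
      intro m hm
      rw [map_inv, Equiv.Perm.inv_def, Equiv.symm_apply_eq, hx m hm]
  have hinv : ∀ (g : G) (m : ℤ), |m| ≤ B → |σ g m| ≤ B := fun g m hm => by
    by_contra hne
    push Not at hne
    have := (σ g).injective (hfix g _ hne)
    rw [this] at hne
    omega
  let f : G →* Equiv.Perm {m : ℤ // |m| ≤ B} :=
    MonoidHom.mk' (fun g => ⟨fun m => ⟨σ g m, hinv g m m.2⟩, fun m => ⟨σ g⁻¹ m, hinv g⁻¹ m m.2⟩,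
      fun m => Subtype.ext (by simp), fun m => Subtype.ext (by simp)⟩)
      fun g h => Equiv.ext fun m => Subtype.ext (by simp)
  have : Finite {m : ℤ // |m| ≤ (B : ℤ)} :=
    Set.Finite.to_subtype ((Set.finite_Icc (-(B : ℤ)) B).subset fun m hm => abs_le.1 hm)
  refine MonoidHom.ext fun g => Equiv.ext fun m => ?_
  by_cases hm : |m| ≤ (B : ℤ)
  · exact congrArg Subtype.val
      (congrArg (fun e : Equiv.Perm {m : ℤ // |m| ≤ (B : ℤ)} => e ⟨m, hm⟩)
        (DFunLike.congr_fun (hom_finite_eq_one hG f) g))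
  · exact hfix g m (not_le.1 hm)

/-- Conjugation by the reflection. -/
def reflect (σ : G →* Equiv.Perm ℤ) : G →* Equiv.Perm ℤ :=
  MonoidHom.mk' (fun g => (Equiv.neg ℤ).trans ((σ g).trans (Equiv.neg ℤ))) fun g h =>
    Equiv.ext fun m => by simp

theorem reflect_apply (σ : G →* Equiv.Perm ℤ) (g : G) (m : ℤ) : reflect σ g m = -σ g (-m) := rfl

theorem eq_one_of_periodic (hG : ∀ H : Subgroup G, H.FiniteIndex → H = ⊤)
    {σ : G →* Equiv.Perm ℤ} (hb : BoundedDisp σ) (T : Finset G)
    (hT : Subgroup.closure (T : Set G) = ⊤) {P Q : ℤ} (hP : 0 < P) (hQ : 0 < Q)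
    (hR : ∀ g ∈ T, ∃ M : ℤ, ∀ m, M ≤ m → σ g (m + P) = σ g m + P)
    (hL : ∀ g ∈ T, ∃ M : ℤ, ∀ m, m ≤ M → σ g (m - Q) = σ g m - Q) : σ = 1 := by
  have hb' : BoundedDisp (reflect σ) := fun g => by
    obtain ⟨N, hN⟩ := hb g
    exact ⟨N, fun m => by
      rw [reflect_apply]; have := abs_le.1 (hN (-m)); rw [abs_le]; omega⟩
  have hp' : RightPer (reflect σ) Q := rightPer_closed hb' Q _ hT fun g hg => by
    obtain ⟨M, hM⟩ := hL g hg
    refine ⟨-M, fun m hm => ?_⟩
    simp only [reflect_apply, neg_add, ← sub_eq_add_neg]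
    rw [hM (-m) (by omega)]
    ring
  refine eq_one_of_eventually_fixed hG T hT
    (fun g _ => right_fixed hG hP (rightPer_closed hb P _ hT hR) g) fun g _ => ?_
  obtain ⟨M, hM⟩ := right_fixed hG hQ hp' g
  refine ⟨-M, fun m hm => ?_⟩
  have := hM (-m) (by omega)
  rw [reflect_apply, neg_neg] at this
  omega

end Vale.Agent.P196
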