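import Vale.Agent.P196.Periodic

/-!
P196: a finitely presented group acting by bounded displacement can be made eventually periodic
without losing a moved point.
-/

namespace Vale.Agent.P196

/-- Walking along a word with the displacements read from a colouring. -/
def walk {α : Type*} (d : ℤ → α → ℤ) : List α → ℤ → ℤ
  | [], m => m
  | l :: w, m => walk d w m + d (walk d w m) l

theorem walk_local {α : Type*} {d d' : ℤ → α → ℤ} {N : ℕ} (hd : ∀ m l, |d' m l| ≤ N)
    (w : List α) (m p : ℤ) (h : ∀ j : ℤ, |j| ≤ (N * w.length : ℕ) → d (p + j) = d' (m + j)) :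
    walk d w p - p = walk d' w m - m ∧ |walk d' w m - m| ≤ (N * w.length : ℕ) := by
  induction w with
  | nil => simp [walk]
  | cons l w ih =>
    obtain ⟨h1, h2⟩ := ih fun j hj => h j (hj.trans (by push_cast [List.length_cons]; nlinarith))
    have h3 := h (walk d' w m - m) (h2.trans (by push_cast [List.length_cons]; nlinarith))
    rw [add_sub_cancel, show p + (walk d' w m - m) = walk d w p by linarith] at h3
    simp only [walk]
    refine ⟨by rw [h3]; linarith, ?_⟩
    have h4 := abs_le.1 (hd (walk d' w m) l)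
    have h5 := abs_le.1 h2
    rw [abs_le]
    push_cast [List.length_cons] at h5 ⊢
    constructor <;> nlinarith

/-- The periodising map. -/
def fold (a P b Q : ℤ) (m : ℤ) : ℤ :=
  if a ≤ m then a + (m - a) % P else if m < b then (b - Q) + (m - (b - Q)) % Q else m

theorem fold_step {α : Type*} (c : ℤ → α) {a P b Q : ℤ} (hP : 0 < P) (hQ : 0 < Q) (hba : b ≤ a)
    {R : ℕ} (ha : ∀ j : ℤ, |j| ≤ R → c (a + j) = c (a + P + j))
    (hb : ∀ j : ℤ, |j| ≤ R → c (b - Q + j) = c (b + j)) (m j : ℤ) (hj : |j| ≤ R) :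
    c (fold a P b Q (m + 1) + j) = c (fold a P b Q m + 1 + j) := by
  by_cases h1 : a ≤ m
  · simp only [fold, if_pos h1, if_pos (show a ≤ m + 1 by omega)]
    have e := Int.emod_add_ediv_mul (m - a) P
    have l0 := Int.emod_nonneg (m - a) hP.ne'
    have l1 := Int.emod_lt_of_pos (m - a) hP
    rcases lt_or_eq_of_le (show (m - a) % P + 1 ≤ P by omega) with h | h
    · rw [show (m + 1 - a) % P = (m - a) % P + 1 by
        rw [show m + 1 - a = (m - a) % P + 1 + (m - a) / P * P by linarith,
          Int.add_mul_emod_self_right, Int.emod_eq_of_lt (by omega) h]]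
      ring_nf
    · rw [show (m + 1 - a) % P = 0 by
        rw [show m + 1 - a = ((m - a) / P + 1) * P by linarith, Int.mul_emod_left]]
      rw [add_zero, ha j hj, show a + P + j = a + (m - a) % P + 1 + j by linarith]
  · by_cases h2 : m < b
    · simp only [fold, if_neg h1, if_pos h2]
      have e := Int.emod_add_ediv_mul (m - (b - Q)) Q
      have l0 := Int.emod_nonneg (m - (b - Q)) hQ.ne'
      have l1 := Int.emod_lt_of_pos (m - (b - Q)) hQ
      by_cases h3 : m + 1 < b
      · rw [if_neg (show ¬ a ≤ m + 1 by omega), if_pos h3]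
        rcases lt_or_eq_of_le (show (m - (b - Q)) % Q + 1 ≤ Q by omega) with h | h
        · rw [show (m + 1 - (b - Q)) % Q = (m - (b - Q)) % Q + 1 by
            rw [show m + 1 - (b - Q) = (m - (b - Q)) % Q + 1 + (m - (b - Q)) / Q * Q by linarith,
              Int.add_mul_emod_self_right, Int.emod_eq_of_lt (by omega) h]]
          ring_nf
        · rw [show (m + 1 - (b - Q)) % Q = 0 by
            rw [show m + 1 - (b - Q) = ((m - (b - Q)) / Q + 1) * Q by linarith, Int.mul_emod_left]]
          rw [add_zero, hb j hj, show b + j = b - Q + (m - (b - Q)) % Q + 1 + j by linarith]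
      · obtain rfl : m = b - 1 := by omega
        have h4 : (b - 1 - (b - Q)) % Q = Q - 1 := by
          rw [Int.emod_eq_of_lt (by omega) (by omega)]; ring
        rw [h4, show b - Q + (Q - 1) + 1 = b by ring, show b - 1 + 1 = b by ring]
        by_cases h5 : a ≤ b
        · obtain rfl : a = b := le_antisymm h5 hba
          simp
        · rw [if_neg h5, if_neg (lt_irrefl b)]
    · simp only [fold, if_neg h1, if_neg h2]
      by_cases h3 : a ≤ m + 1
      · rw [if_pos h3, show m + 1 - a = 0 by omega, Int.zero_emod, add_zero,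
          show a = m + 1 by omega]
      · rw [if_neg h3, if_neg (show ¬ m + 1 < b by omega)]

theorem fold_window {α : Type*} (c : ℤ → α) {a P b Q : ℤ} (hP : 0 < P) (hQ : 0 < Q) (hba : b ≤ a)
    {R : ℕ} (ha : ∀ j : ℤ, |j| ≤ R → c (a + j) = c (a + P + j))
    (hb : ∀ j : ℤ, |j| ≤ R → c (b - Q + j) = c (b + j)) (m : ℤ) :
    ∀ j : ℤ, |j| ≤ R → c (fold a P b Q m + j) = c (fold a P b Q (m + j)) := by
  have hpos : ∀ (k : ℕ) (j : ℤ), |j| + k ≤ R →
      c (fold a P b Q (m + k) + j) = c (fold a P b Q m + k + j) := by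
    intro k
    induction k with
    | zero => simp
    | succ k ih =>
      intro j hj
      push_cast at hj ⊢
      have h1 := fold_step c hP hQ hba ha hb (m + k) j (by have := Int.natCast_nonneg k; linarith)
      rw [← add_assoc m (k : ℤ) 1, h1]
      have h2 := ih (1 + j) (by have := abs_add_le (1 : ℤ) j; simp only [abs_one] at this; linarith)
      rw [← add_assoc, ← add_assoc] at h2
      rw [h2]
      ring_nf
  have hneg : ∀ (k : ℕ) (j : ℤ), |j| + k ≤ R →
      c (fold a P b Q (m - k) + j) = c (fold a P b Q m - k + j) := by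
    intro k
    induction k with
    | zero => simp
    | succ k ih =>
      intro j hj
      push_cast at hj ⊢
      have hj' : |j - 1| + (k : ℤ) ≤ R := by
        have := abs_sub j (1 : ℤ); simp only [abs_one] at this; linarith
      have h1 := fold_step c hP hQ hba ha hb (m - (k + 1)) (j - 1)
        (by have := Int.natCast_nonneg k; linarith)
      rw [show m - ((k : ℤ) + 1) + 1 = m - k by ring, ih (j - 1) hj'] at h1
      rw [show fold a P b Q (m - (k + 1)) + j = fold a P b Q (m - (k + 1)) + 1 + (j - 1) by ring, ← h1]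
      ring_nf
  intro j hj
  rcases le_total 0 j with h | h
  · obtain ⟨k, rfl⟩ := Int.eq_ofNat_of_zero_le h
    have := hpos k 0 (by rw [abs_of_nonneg h] at hj; simpa using hj)
    simp only [add_zero] at this
    exact this.symm
  · obtain ⟨k, hk⟩ := Int.eq_ofNat_of_zero_le (neg_nonneg.2 h)
    obtain rfl : j = -(k : ℤ) := by omega
    have := hneg k 0 (by rw [abs_of_nonpos h, neg_neg] at hj; simpa using hj)
    simp only [add_zero] at this
    simpa [sub_eq_add_neg] using this.symm

theorem exists_fold_data {α : Type*} [Finite α] (c : ℤ → α) (R : ℕ) (m₀ : ℤ) :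
    ∃ a P b Q : ℤ, 0 < P ∧ 0 < Q ∧ b ≤ m₀ ∧ m₀ < a ∧
      (∀ j : ℤ, |j| ≤ R → c (a + j) = c (a + P + j)) ∧
      ∀ j : ℤ, |j| ≤ R → c (b - Q + j) = c (b + j) := by
  classical
  have hwin : ∀ s : ℕ → ℤ, ∃ i k : ℕ, i < k ∧ ∀ j : ℤ, |j| ≤ R → c (s i + j) = c (s k + j) := by
    intro s
    obtain ⟨i, k, hne, h⟩ := Finite.exists_ne_map_eq_of_infinite
      (fun n : ℕ => fun t : Fin (2 * R + 1) => c (s n + ((t : ℤ) - R)))
    have key : ∀ j : ℤ, |j| ≤ R → c (s i + j) = c (s k + j) := fun j hj => by
      have hj' := abs_le.1 hj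
      have ht : ((j + R).toNat : ℤ) = j + R := Int.toNat_of_nonneg (by omega)
      have := congrFun h ⟨(j + R).toNat, by omega⟩
      simpa [ht] using this
    rcases lt_or_gt_of_ne hne with h' | h'
    · exact ⟨i, k, h', key⟩
    · exact ⟨k, i, h', fun j hj => (key j hj).symm⟩
  obtain ⟨i, k, hik, h1⟩ := hwin fun n => m₀ + 1 + n
  obtain ⟨i', k', hik', h2⟩ := hwin fun n => m₀ - n
  refine ⟨m₀ + 1 + i, (k : ℤ) - i, m₀ - i', (k' : ℤ) - i', by omega, by omega, by omega, by omega,
    fun j hj => ?_, fun j hj => ?_⟩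
  · rw [show m₀ + 1 + (i : ℤ) + ((k : ℤ) - i) + j = m₀ + 1 + k + j by ring]
    exact h1 j hj
  · rw [show m₀ - (i' : ℤ) - ((k' : ℤ) - i') + j = m₀ - k' + j by ring]
    exact (h2 j hj).symm

end Vale.Agent.P196
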